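import Crest.Agent.N250.Bt.Stm_Mg
import Crest.Agent.N250.T.Gau

/-!
# Row 250, Boot (helper14): S2, reach and jets on a larger ball at the same time
-/

set_option autoImplicit false
open MeasureTheory Set Filter Topology
open scoped ContDiff InnerProductSpace
open Crest.GeometryTopology.MCF

noncomputable section

namespace Crest.Agent.N250.Bt

theorem fl_abs {G : Mv} {I : Set ℝ} {Λ : ℝ} (h : Fl G I Λ) : Fl G I |Λ| :=
  ⟨h.mcf, h.time, h.proper, fun t y r hr => (h.ar t y r hr).trans (ENNReal.ofReal_le_ofReal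
    (mul_le_mul_of_nonneg_right (le_abs_self _) (sq_nonneg _)))⟩

theorem poly_exp {κ ε : ℝ} (A : ℝ) (hκ : 0 < κ) (hε : 0 < ε) :
    ∃ R₀ : ℝ, ∀ R, R₀ ≤ R → A * (1 + R) ^ 2 * Real.exp (-κ * R ^ 2) ≤ ε := by
  refine ⟨max 1 (8 * |A| / (κ ^ 2 * ε)), fun R hR => ?_⟩
  have h1 : 1 ≤ R := (le_max_left _ _).trans hR
  have h2 : 8 * |A| / (κ ^ 2 * ε) ≤ R := (le_max_right _ _).trans hR
  rw [div_le_iff₀ (by positivity)] at h2
  have h3 := Real.quadratic_le_exp_of_nonneg (show 0 ≤ κ * R ^ 2 by positivity)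
  rw [neg_mul, Real.exp_neg, ← div_eq_mul_inv, div_le_iff₀ (Real.exp_pos _)]
  have h4 : A * (1 + R) ^ 2 ≤ |A| * (4 * R ^ 2) :=
    mul_le_mul (le_abs_self _) (by nlinarith) (by positivity) (abs_nonneg _)
  have h5 : 8 * |A| * R ^ 2 ≤ R * (κ ^ 2 * ε) * R ^ 2 :=
    mul_le_mul_of_nonneg_right h2 (by positivity)
  have h6 : R * (κ ^ 2 * ε) * R ^ 2 ≤ R ^ 2 * (κ ^ 2 * ε) * R ^ 2 := by
    gcongr; nlinarith
  have h7 : ε * ((κ * R ^ 2) ^ 2 / 2) ≤ ε * Real.exp (κ * R ^ 2) :=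
    mul_le_mul_of_nonneg_left (by nlinarith [show 0 ≤ κ * R ^ 2 by positivity]) hε.le
  nlinarith

theorem exists_T (A : ℝ) {ε : ℝ} (hε : 0 < ε) : ∃ T : ℝ, 0 < T ∧ A * Real.exp (-T ^ 2 / 8) ≤ ε := by
  obtain ⟨R, hR⟩ := poly_exp |A| (κ := 1 / 8) (by norm_num) hε
  refine ⟨max R 1, lt_max_of_lt_right one_pos, le_trans ?_ (hR _ (le_max_left R 1))⟩
  have h1 : 1 ≤ max R 1 := le_max_right _ _
  rw [show -(1 / 8) * max R 1 ^ 2 = -max R 1 ^ 2 / 8 by ring]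
  refine mul_le_mul_of_nonneg_right ?_ (Real.exp_pos _).le
  nlinarith [le_abs_self A, abs_nonneg A, mul_nonneg (abs_nonneg A) (sq_nonneg (max R 1)),
    mul_nonneg (abs_nonneg A) (zero_le_one.trans h1)]

theorem gau_sm (s : ℝ) : ContDiff ℝ ∞ (gau 0 s) := by
  unfold gau
  refine contDiff_const.mul (Real.contDiff_exp.comp (ContDiff.div_const (ContDiff.neg ?_) _))
  exact (contDiff_id.sub contDiff_const).norm_sq ℝ

/-- a truncated Gaussian -/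
theorem exists_gam {h T : ℝ} (hh : 0 < h) (hT : 0 < T) : ∃ (γ : E → ℝ) (K : ℝ), ContDiff ℝ ∞ γ ∧
    (∀ w, |γ w| ≤ K) ∧ (∀ w, ‖fderiv ℝ γ w‖ ≤ K) ∧ (∀ w, 0 ≤ γ w) ∧ (∀ w, γ w ≤ gau 0 h w) ∧
    (∀ w, ‖w‖ < T * √h → γ w = gau 0 h w) ∧ ∀ w, 2 * T * √h ≤ ‖w‖ → γ w = 0 := by
  have hq : 0 < √h := Real.sqrt_pos.2 hh
  let b : ContDiffBump (0 : E) := ⟨T * √h, 2 * T * √h, by positivity, by nlinarith⟩
  have h1 : ContDiff ℝ ∞ fun w => b w * gau 0 h w := b.contDiff.mul (gau_sm h)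
  have h2 : HasCompactSupport fun w => b w * gau 0 h w := b.hasCompactSupport.mul_right
  obtain ⟨K₁, k1⟩ := h1.continuous.bounded_above_of_compact_support h2
  obtain ⟨K₂, k2⟩ := (h1.continuous_fderiv (by simp)).bounded_above_of_compact_support
    (h2.fderiv ℝ)
  refine ⟨_, max K₁ K₂, h1, fun w => (k1 w).trans (le_max_left _ _),
    fun w => (k2 w).trans (le_max_right _ _),
    fun w => mul_nonneg b.nonneg (Gau.gau_pos 0 hh w).le,
    fun w => mul_le_of_le_one_left (Gau.gau_pos 0 hh w).le b.le_one, fun w hw => ?_, fun w hw => ?_⟩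
  · rw [b.one_of_mem_closedBall (by simpa using hw.le), one_mul]
  · rw [b.zero_of_le_dist (by simpa using hw), zero_mul]

theorem gau_scale {σ h : ℝ} (hσ : 0 < σ) (hh : 0 < h) (z y : E) :
    σ ^ 2 * gau 0 h (σ • y - z) = gau (σ⁻¹ • z) (h / σ ^ 2) y := by
  have e : σ • y - z = σ • (y - σ⁻¹ • z) := by rw [smul_sub, smul_smul, mul_inv_cancel₀ hσ.ne', one_smul]
  have hpi := Real.pi_pos
  rw [gau, gau, sub_zero, e, norm_smul, Real.norm_of_nonneg hσ.le,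
    show -(σ * ‖y - σ⁻¹ • z‖) ^ 2 / (4 * h) = -‖y - σ⁻¹ • z‖ ^ 2 / (4 * (h / σ ^ 2)) by field_simp]
  field_simp

/-- the density at lag `h` is close to one -/
theorem dens (hD : DivS) (hT : TransS) (hC : MuContS) (hH : HuiskenS) {Λ ε h η : ℝ} (hΛ : 0 ≤ Λ)
    (hε : 0 < ε) (hh : 0 < h) (hh2 : h ≤ 1 / 2) (hη : 0 < η) (hη1 : η < 1) :
    ∃ r₀ : ℝ, 1 ≤ r₀ ∧ ∀ (G : Mv) (a R r : ℝ), a < -4 → Fl G (Ioo a 0) Λ →
      G.Fg 0 2 - G.Fg 0 1 ≤ Real.exp (-R ^ 2 / 4) → r₀ ≤ r → r ≤ (1 - η) * R →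
      (∀ y : E, ‖y‖ ≤ r - 1 → ∀ σ ∈ Icc (h / 2) h, G.Fs (-1) y σ ≤ 1 + ε / 2) →
      ∀ (z : E) (t : ℝ), ‖z‖ ≤ r + 4 → t ∈ Icc (-1 - h) (-1) → G.Fg (z, t) √h ≤ 1 + ε := by
  obtain ⟨T, hT0, hT1⟩ := exists_T (Gau.C0 * Λ) (show 0 < ε / 4 by positivity)
  obtain ⟨γ, K, g1, g2, g3, g4, g5, g6, g7⟩ := exists_gam hh hT0
  have hK : 0 ≤ K := (abs_nonneg _).trans (g2 0)
  have hpi := Real.pi_pos
  obtain ⟨R₀, hR₀⟩ := poly_exp (12 * (8 * K) * Λ + 32 * Real.pi * (8 * K)) (κ := η / 16)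
    (by positivity) (show 0 < ε / 4 by positivity)
  refine ⟨max (max 1 R₀) (max (1 + 20 / h) ((8 + 4 * T) / η)), le_max_of_le_left (le_max_left _ _),
    fun G a R r ha hG hd hr hrR hF z t hz ht => ?_⟩
  have r1 : 1 ≤ r := (le_max_of_le_left (le_max_left _ _)).trans hr
  have r2 : R₀ ≤ r := (le_max_of_le_left (le_max_right _ _)).trans hr
  have r3 : 1 + 20 / h ≤ r := (le_max_of_le_right (le_max_left _ _)).trans hr
  have r4 : (8 + 4 * T) / η ≤ r := (le_max_of_le_right (le_max_right _ _)).trans hr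
  have hR : 0 < R := by by_contra hh; nlinarith [not_lt.1 hh]
  have hrR' : r ≤ R := by nlinarith
  have hq : √h ≤ 1 := Real.sqrt_le_one.2 (by linarith)
  set σ := √(h - t) with hσ
  have hσ2 : σ ^ 2 = h - t := Real.sq_sqrt (by linarith [ht.2])
  have hσ0 : 0 ≤ σ := Real.sqrt_nonneg _
  have hσ1 : 1 + h / 4 ≤ σ := Real.le_sqrt_of_sq_le (by nlinarith [ht.2])
  have hσ3 : σ ^ 2 ≤ 2 := by linarith [ht.1]
  have hσ4 : σ ≤ 2 := by nlinarith
  have hσ5 : 0 < σ := by linarith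
  set g : E → ℝ := fun y => σ ^ 2 * γ (σ • y - z) with hg
  have l1 : ContDiff ℝ ∞ fun y : E => σ • y - z := (contDiff_id.const_smul σ).sub contDiff_const
  have s1 : ContDiff ℝ ∞ g := contDiff_const.mul (g1.comp l1)
  have s2 : ∀ y, |g y| ≤ 8 * K := fun y => by
    rw [hg, abs_mul, abs_of_nonneg (sq_nonneg σ)]
    nlinarith [g2 (σ • y - z), abs_nonneg (γ (σ • y - z))]
  have s3 : ∀ y, ‖fderiv ℝ g y‖ ≤ 8 * K := fun y => by
    have d1 : HasFDerivAt (fun y : E => σ • y - z) (σ • ContinuousLinearMap.id ℝ E) y :=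
      ((hasFDerivAt_id y).const_smul σ).sub_const z
    have d2 := ((g1.differentiable (by simp) _).hasFDerivAt.comp y d1).const_mul (σ ^ 2)
    rw [show fderiv ℝ g y = _ from d2.fderiv, norm_smul, Real.norm_of_nonneg (sq_nonneg σ)]
    have d3 := (ContinuousLinearMap.opNorm_comp_le (fderiv ℝ γ (σ • y - z))
      (σ • ContinuousLinearMap.id ℝ E))
    rw [norm_smul, Real.norm_of_nonneg hσ0] at d3
    have d4 : σ * ‖ContinuousLinearMap.id ℝ E‖ ≤ 2 :=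
      (mul_le_of_le_one_right hσ0 ContinuousLinearMap.norm_id_le).trans hσ4
    have d5 := d3.trans (mul_le_mul (g3 _) d4 (by positivity) hK)
    nlinarith [norm_nonneg ((fderiv ℝ γ (σ • y - z)).comp (σ • ContinuousLinearMap.id ℝ E))]
  have s4 : ∀ y, (1 - η / 2) * R ≤ ‖y‖ → g y = 0 := fun y hy => by
    rw [hg]; simp only
    rw [g7, mul_zero]
    have b1 := norm_sub_norm_le (σ • y) z
    rw [norm_smul, Real.norm_of_nonneg hσ0] at b1
    rw [div_le_iff₀ hη] at r4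
    have b2 : ‖y‖ ≤ σ * ‖y‖ := le_mul_of_one_le_left (norm_nonneg _) (by linarith)
    nlinarith [mul_le_mul_of_nonneg_left hq (show 0 ≤ 2 * T by positivity)]
  have ht' : t - h ∈ Icc (-4 : ℝ) (-1) := ⟨by linarith [ht.1], by linarith [ht.2]⟩
  have w := weak hD hT hC hH ha hG s1 (δ := Real.exp (-(η / 16) * R ^ 2)) (Real.exp_pos _)
    (show 0 < (1 - η / 2) * R by nlinarith) s2 s3 s4 hΛ ht'
  have e1 : ∀ x, ss g (x, t - h) = γ (x - z) := fun x => by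
    simp only [ss, hg, neg_sub, ← hσ, smul_smul, mul_inv_cancel₀ hσ5.ne', one_smul]
    rw [← hσ2, ← mul_assoc, inv_mul_cancel₀ (by positivity), one_mul]
  simp only [e1] at w
  have i0 := fun (u : ℝ) (y : E) {s : ℝ} (hs : 0 < s) =>
    Gau.int_gau (μ := G.mu u) hΛ (hG.ar u) y hs
  have w1 : ∫ x, g x ∂G.mu (-1) ≤ 1 + ε / 2 := by
    refine le_trans (integral_mono_of_nonneg (Eventually.of_forall fun y =>
      mul_nonneg (sq_nonneg σ) (g4 _)) (i0 (-1) (σ⁻¹ • z) (s := h / σ ^ 2) (by positivity))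
      (Eventually.of_forall fun y => ?_)) (hF (σ⁻¹ • z) ?_ _ ⟨?_, ?_⟩)
    · rw [← gau_scale hσ5 hh]
      exact mul_le_mul_of_nonneg_left (g5 _) (sq_nonneg σ)
    · rw [norm_smul, norm_inv, Real.norm_of_nonneg hσ0, ← div_eq_inv_mul, div_le_iff₀ hσ5]
      have b1 : 20 ≤ (r - 1) * h := by rw [← div_le_iff₀ hh]; linarith
      nlinarith [mul_le_mul_of_nonneg_left hσ1 (show 0 ≤ r - 1 by linarith)]
    · exact div_le_div_of_nonneg_left hh.le (by positivity) hσ3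
    · exact div_le_self hh.le (by nlinarith)
  have w2 : G.Fg (z, t) √h ≤ ∫ x, γ (x - z) ∂G.mu (t - h) + ε / 4 := by
    simp only [Mv.Fg, Real.sq_sqrt hh.le, Mv.Fs]
    have ez : ∀ x, gau 0 h (x - z) = gau z h x := fun x => by simp [gau]
    have j1 : Integrable (fun x => γ (x - z)) (G.mu (t - h)) :=
      (i0 _ z hh).mono' (g1.continuous.comp (by fun_prop)).aestronglyMeasurable
        (Eventually.of_forall fun x => by
          rw [Real.norm_of_nonneg (g4 _), ← ez]; exact g5 _)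
    have mb : MeasurableSet (Metric.ball z (T * √h))ᶜ := Metric.isOpen_ball.measurableSet.compl
    have j2 := (i0 (t - h) z hh).indicator mb
    refine (integral_mono (i0 _ z hh) (j1.add j2) fun x => ?_).trans ?_
    · by_cases hx : x ∈ Metric.ball z (T * √h)
      · simp only [Pi.add_apply]
        rw [indicator_of_notMem (by simpa using hx), add_zero,
          g6 _ (by simpa [dist_eq_norm] using hx), ez]
      · simp only [Pi.add_apply]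
        rw [indicator_of_mem hx]
        linarith [g4 (x - z)]
    · rw [integral_add' j1 j2, integral_indicator mb]
      linarith [Gau.tail hΛ (hG.ar (t - h)) z hh hT0.le]
  have w3 := hR₀ R (r2.trans hrR')
  set δ := Real.exp (-(η / 16) * R ^ 2) with hδ
  have hδ0 : 0 < δ := Real.exp_pos _
  have hδ1 : δ ≤ 1 := Real.exp_le_one_iff.2 (by nlinarith [sq_nonneg R])
  set ρ := (1 - η / 2) * R with hρ
  have hρ0 : 0 ≤ ρ := by nlinarith
  have hρ1 : ρ ≤ R := by nlinarith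
  have x1 : Real.exp (ρ ^ 2 / 4) * Real.exp (-R ^ 2 / 4) ≤ δ ^ 3 := by
    rw [hδ, ← Real.exp_add, ← Real.exp_nat_mul]
    refine Real.exp_le_exp.2 ?_
    have : 0 ≤ η * (1 - η) * R ^ 2 := by have := sub_pos.2 hη1; positivity
    push_cast; rw [hρ]; nlinarith
  have x2 : (1 + (1 + ρ) ^ 2 / (4 * δ)) * δ ^ 3 ≤ 2 * (1 + R) ^ 2 * δ := by
    have b1 : (1 + ρ) ^ 2 ≤ (1 + R) ^ 2 := by gcongr
    have b2 : 1 ≤ (1 + R) ^ 2 := by nlinarith
    have b3 : δ ^ 2 ≤ δ := by nlinarith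
    have b4 : δ ^ 3 ≤ δ := by nlinarith
    rw [show (1 + (1 + ρ) ^ 2 / (4 * δ)) * δ ^ 3 = δ ^ 3 + (1 + ρ) ^ 2 * δ ^ 2 / 4 by field_simp]
    nlinarith [mul_le_mul b1 b3 (by positivity) (by positivity)]
  have x3 : 8 * K * (1 + (1 + ρ) ^ 2 / (4 * δ)) * (16 * Real.pi * Real.exp (ρ ^ 2 / 4))
      * (G.Fg 0 2 - G.Fg 0 1) ≤ 32 * Real.pi * (8 * K) * (1 + R) ^ 2 * δ := by
    calc _ ≤ 8 * K * (1 + (1 + ρ) ^ 2 / (4 * δ)) * (16 * Real.pi * Real.exp (ρ ^ 2 / 4))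
          * Real.exp (-R ^ 2 / 4) := by gcongr
      _ = 16 * Real.pi * (8 * K) * ((1 + (1 + ρ) ^ 2 / (4 * δ))
          * (Real.exp (ρ ^ 2 / 4) * Real.exp (-R ^ 2 / 4))) := by ring
      _ ≤ 16 * Real.pi * (8 * K) * ((1 + (1 + ρ) ^ 2 / (4 * δ)) * δ ^ 3) := by gcongr
      _ ≤ 16 * Real.pi * (8 * K) * (2 * (1 + R) ^ 2 * δ) := by gcongr
      _ = _ := by ring
  have x4 : 12 * (8 * K) * δ * Λ * ρ ^ 2 ≤ 12 * (8 * K) * Λ * (1 + R) ^ 2 * δ := by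
    calc _ ≤ 12 * (8 * K) * δ * Λ * (1 + R) ^ 2 := by gcongr; linarith
      _ = _ := by ring
  linarith

/-- S2 -/
theorem boot2 (hD : DivS) (hT : TransS) (hC : MuContS) (hH : HuiskenS) (hW : WhiteS) (hB : BernS)
    (hA : ReachAS) (Λ : ℝ) : ∃ εW c : ℝ, 0 < εW ∧ 0 < c ∧ ∀ h η : ℝ, 0 < h → h ≤ 1 / 2 → 0 < η →
    η < 1 → ∃ (r₀ : ℝ) (C : ℕ → ℝ), 1 ≤ r₀ ∧ ∀ (G : Mv) (a R r : ℝ), a < -4 → Fl G (Ioo a 0) Λ →
      G.Fg 0 2 - G.Fg 0 1 ≤ Real.exp (-R ^ 2 / 4) → r₀ ≤ r → r ≤ (1 - η) * R →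
      (∀ y : E, ‖y‖ ≤ r - 1 → ∀ σ ∈ Icc (h / 2) h, G.Fs (-1) y σ ≤ 1 + εW) →
      ∀ x ∈ G.sl (-1), ‖x‖ < r + 3 →
        G.Reach (x, -1) (c * √h) ∧ ∀ k, G.NJet k (C k) (x, -1) := by
  obtain ⟨ε, c, hε, hc, hw⟩ := hW |Λ|
  choose CB hCB using hB
  refine ⟨ε / 2, c, by positivity, hc, fun h η hh hh2 hη hη1 => ?_⟩
  obtain ⟨r₀, h1, h2⟩ := dens hD hT hC hH (abs_nonneg Λ) hε hh hh2 hη hη1
  have hq0 : 0 < √h := Real.sqrt_pos.2 hh
  have hq : √h ≤ 1 := Real.sqrt_le_one.2 (by linarith)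
  have hqq : √h ^ 2 = h := Real.sq_sqrt hh.le
  set s := min (√h / 2) (c * √h / 2) with hs
  have s0 : 0 < s := lt_min (by positivity) (by positivity)
  have s1 : s ≤ √h / 2 := min_le_left _ _
  have s2 : s ≤ c * √h / 2 := min_le_right _ _
  refine ⟨r₀, fun k => CB k / s ^ k, h1, fun G a R r ha hG hd hr hrR hF x hx hxr => ?_⟩
  have w := hw G a 0 (x, -1) √h (fl_abs hG) hq0 (by simp only; linarith) (by norm_num)
    fun Y hY => h2 G a R r ha (fl_abs hG) hd hr hrR hF Y.1 Y.2 (by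
      have b1 : dist Y.1 x < √h := hY.1
      have b2 := norm_sub_norm_le Y.1 x
      rw [← dist_eq_norm] at b2
      linarith) ⟨by have := hY.2.1; simp only at this; linarith, hY.2.2⟩
  have m : ∀ u, 0 < u → ((x, -1) : ST) ∈ PC (x, -1) u := fun u hu =>
    ⟨Metric.mem_ball_self hu, by simp only; nlinarith, le_rfl⟩
  refine ⟨w _ ⟨hx, m _ (by positivity)⟩, fun k => hCB k G (x, -1) s hG.mcf s0
    (fun p hp h3 => hG.proper p hp ⟨trivial, ?_, ?_⟩) (fun p hp => ?_) _ ⟨hx, m _ (by positivity)⟩⟩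
  · have := h3.2.1; simp only at this; nlinarith
  · have := h3.2.2; simp only at this; linarith
  · have b1 : p ∈ PC (x, -1) (√h / 2) := ⟨Metric.ball_subset_ball s1 hp.2.1,
      lt_of_le_of_lt (by simp only; nlinarith) hp.2.2.1, hp.2.2.2⟩
    refine (hA G hG.mcf.1 p hp.1 _ (by positivity) (w p ⟨hp.1, b1⟩)).2.trans ?_
    rw [div_le_div_iff₀ (by positivity) (by positivity)]
    nlinarith [mul_le_mul s2 s2 s0.le (by positivity), sq_nonneg (c * √h)]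

end Crest.Agent.N250.Bt

end
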